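import Vale.Agent.P286EX.Defs
import Vale.Agent.P286ES.Gen

/-! # The representations which see the vectors of spin `0` and `1/2` -/

set_option linter.all false

namespace Vale.Agent.P286EXR

open Matrix TensorProduct Complex Vale.Agent.P286 Vale.Agent.P286E Vale.Agent.P286EX
  Vale.Agent.P286ES

noncomputable section

variable {G : Grp} (K : GK G)

/-- The entries of the tautological point generate the coordinate ring. -/
theorem gen_top (S : Subalgebra ℂ K.O.R) (h : ∀ p q, K.g p q ∈ S) (f : K.O.R) : f ∈ S := by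
  let g' : Matrix (Fin G.N) (Fin G.N) S := of fun p q => ⟨K.g p q, h p q⟩
  have e : g'.map S.val = K.g := rfl
  have hi : Function.Injective S.val := Subtype.val_injective
  have hp : G.Pt g' := by
    refine ⟨hi ?_, ?_⟩
    · have h1 := (S.val : S →+* K.O.R).map_det g'
      exact h1.trans (K.pt.det.trans (map_one S.val).symm)
    · refine Matrix.map_injective hi ?_
      change (g'ᵀ * _ * g').map S.val = Matrix.map _ S.val
      rw [map_mul', map_mul', map_cm, transpose_map, e]
      exact K.pt.form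
  have h2 : S.val.comp (K.ev g' hp) = AlgHom.id ℂ _ := K.ext _ _ (by
    have h3 := congrArg (fun m => m.map S.val) (K.ev_g g' hp)
    exact h3)
  have h4 : ((K.ev g' hp f : S) : K.O.R) = f := AlgHom.congr_fun h2 f
  exact h4 ▸ (K.ev g' hp f).2

theorem der_ext {D D' : Derivation ℂ K.O.R K.O.R} (h : ∀ p q, D (K.g p q) = D' (K.g p q)) :
    D = D' := by
  refine Derivation.ext fun f => ?_
  let S : Subalgebra ℂ K.O.R :=
    { carrier := {f | D f = D' f}
      mul_mem' := fun {a b} ha hb => by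
        change D (a * b) = D' (a * b)
        rw [D.leibniz, D'.leibniz, show D a = D' a from ha, show D b = D' b from hb]
      add_mem' := fun {a b} ha hb => by
        change D (a + b) = D' (a + b)
        rw [map_add, map_add, show D a = D' a from ha, show D b = D' b from hb]
      algebraMap_mem' := fun c => (D.map_algebraMap c).trans (D'.map_algebraMap c).symm }
  exact gen_top K S h f

theorem map_der {A : Type} [CommRing A] [Algebra ℂ A] {n : ℕ} (D : Derivation ℂ A A)
    (m : Matrix (Fin n) (Fin n) A) (c : Matrix (Fin n) (Fin n) ℂ) :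
    (m * c.map (algebraMap ℂ A)).map D = m.map D * c.map (algebraMap ℂ A) := by
  refine Matrix.ext fun p q => ?_
  simp only [map_apply, mul_apply, map_sum, Derivation.leibniz, Derivation.map_algebraMap,
    smul_eq_mul, mul_zero, zero_add]
  exact Finset.sum_congr rfl fun k _ => mul_comm _ _

theorem LL_g (a b : Fin 3) (p q : Fin G.N) : K.L a (K.L b (K.g p q)) =
    (K.g * (G.β a * G.β b).map (algebraMap ℂ K.O.R)) p q := by
  have h1 := congrArg (fun m => m.map (K.L a)) (K.L_g b)
  simp only [bt] at h1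
  rw [map_der, K.L_g a, bt, Matrix.mul_assoc, ← Matrix.map_mul] at h1
  exact congrFun (congrFun h1 p) q

theorem L_br (a b : Fin 3) (f : K.O.R) :
    K.L a (K.L b f) - K.L b (K.L a f) = ∑ c, (K.κ * eps a b c) • K.L c f := by
  have h : ⁅K.L a, K.L b⁆ = ∑ c, (K.κ * eps a b c) • K.L c := der_ext K fun p q => by
    rw [Derivation.commutator_apply, LL_g, LL_g, ← Matrix.sub_apply, ← Matrix.mul_sub]
    have e1 := map_sub (algebraMap ℂ K.O.R).mapMatrix (G.β a * G.β b) (G.β b * G.β a)
    simp only [RingHom.mapMatrix_apply] at e1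
    rw [← e1, K.br]
    have e2 : ∀ c, K.L c (K.g p q) = (K.g * bt G K.O.R c) p q := fun c =>
      congrFun (congrFun (K.L_g c) p) q
    simp only [Fin.sum_univ_three, Derivation.add_apply, Derivation.smul_apply, e2, bt, mul_apply,
      map_apply, Matrix.add_apply, Matrix.smul_apply, smul_eq_mul, map_add, map_mul, mul_add,
      Finset.sum_add_distrib, Finset.smul_sum]
    simp only [Algebra.smul_def, map_mul]
    congr 1
    congr 1
    all_goals exact Finset.sum_congr rfl fun k _ => by ring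
  have h2 := congrArg (fun D : Derivation ℂ K.O.R K.O.R => D f) h
  simp only [Derivation.commutator_apply, Fin.sum_univ_three, Derivation.add_apply,
    Derivation.smul_apply] at h2 ⊢
  exact h2

section Mod

variable {M M' : Type} [AddCommGroup M] [Module ℂ M] [AddCommGroup M'] [Module ℂ M']
  {μ : Fin 3 → M →ₗ[ℂ] M} {ρ : M →ₗ[ℂ] K.O.R ⊗[ℂ] M'}

theorem mu_br (hi : Function.Injective ρ)
    (h : ∀ a m, ρ (μ a m) = (K.L a).toLinearMap.rTensor M' (ρ m)) (a b : Fin 3) (m : M) :
    μ a (μ b m) - μ b (μ a m) = ∑ c, (K.κ * eps a b c) • μ c m := by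
  refine hi ?_
  simp only [map_sub, map_sum, map_smul, h]
  generalize ρ m = t
  induction t using TensorProduct.induction_on with
  | zero => simp
  | tmul f x =>
    simp only [LinearMap.rTensor_tmul, Derivation.coeFn_coe]
    rw [← sub_tmul, L_br, sum_tmul]
    rfl
  | add s t hs ht =>
    simp only [map_add, smul_add, Finset.sum_add_distrib, ← hs, ← ht]
    abel

/-- The normalised operators. -/
def nm (μ : Fin 3 → M →ₗ[ℂ] M) : Fin 3 → Module.End ℂ M := fun a => K.κ⁻¹ • μ a

theorem nm_apply (μ : Fin 3 → M →ₗ[ℂ] M) (a : Fin 3) (m : M) : nm K μ a m = K.κ⁻¹ • μ a m := rfl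

theorem vec_of (h : ∀ a b m, μ a (μ b m) - μ b (μ a m) = ∑ c, (K.κ * eps a b c) • μ c m) :
    Vec (nm K μ) (nm K μ) := by
  have hk := inv_mul_cancel₀ K.κ_ne
  have e : ∀ a x, μ a (μ (a + 1) x) - μ (a + 1) (μ a x) = K.κ • μ (a + 2) x := fun a x => by
    rw [h]
    fin_cases a <;> simp [eps, Fin.sum_univ_three]
  have e' : ∀ a x, μ a (μ (a + 2) x) - μ (a + 2) (μ a x) = -(K.κ • μ (a + 1) x) := fun a x => by
    rw [h]
    fin_cases a <;> simp [eps, Fin.sum_univ_three]
  refine ⟨fun _ _ => rfl, fun a x => ?_, fun a x => ?_⟩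
  · simp only [nm_apply, map_smul]
    rw [sub_eq_iff_eq_add.1 (e a x), smul_add, smul_add, smul_smul _ K.κ, hk, one_smul, add_comm]
  · simp only [nm_apply, map_smul]
    rw [sub_eq_iff_eq_add.1 (e' a x), smul_add, smul_add, smul_neg, smul_smul _ K.κ, hk, one_smul,
      smul_neg, neg_add_eq_sub]

theorem lf_tens (t : K.O.R ⊗[ℂ] M') : ∃ W : Submodule ℂ (K.O.R ⊗[ℂ] M'), FiniteDimensional ℂ W ∧
    t ∈ W ∧ ∀ a, ∀ x ∈ W, (K.L a).toLinearMap.rTensor M' x ∈ W := by
  induction t using TensorProduct.induction_on with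
  | zero => exact ⟨⊥, inferInstance, zero_mem _, fun a x hx => by
      rw [(Submodule.mem_bot ℂ).1 hx, map_zero]; exact zero_mem _⟩
  | tmul f x =>
    obtain ⟨W, h1, h2, h3⟩ := K.lf f
    refine ⟨W.map ((TensorProduct.mk ℂ K.O.R M').flip x), inferInstance, ⟨f, h1, rfl⟩, ?_⟩
    rintro a _ ⟨y, hy, rfl⟩
    exact ⟨K.L a y, h3 a y hy, rfl⟩
  | add s t hs ht =>
    obtain ⟨W, h1, h2, h3⟩ := hs
    obtain ⟨W', h1', h2', h3'⟩ := ht
    refine ⟨W ⊔ W', inferInstance, Submodule.add_mem_sup h2 h2', fun a x hx => ?_⟩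
    obtain ⟨y, hy, z, hz, rfl⟩ := Submodule.mem_sup.1 hx
    rw [map_add]
    exact Submodule.add_mem_sup (h3 a y hy) (h3' a z hz)

theorem fin_comap {V : Type} [AddCommGroup V] [Module ℂ V] (ρ : M →ₗ[ℂ] V)
    (hi : Function.Injective ρ) (W : Submodule ℂ V) (h : FiniteDimensional ℂ W) :
    FiniteDimensional ℂ (W.comap ρ) :=
  FiniteDimensional.of_injective (V₂ := W) (ρ.restrict fun _ hx => hx)
    fun _ _ e => Subtype.ext (hi (congrArg Subtype.val e))

theorem mu_lf (hi : Function.Injective ρ)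
    (h : ∀ a m, ρ (μ a m) = (K.L a).toLinearMap.rTensor M' (ρ m)) : LF (nm K μ) := fun m => by
  obtain ⟨W, h1, h2, h3⟩ := lf_tens K (ρ m)
  refine ⟨W.comap ρ, ?_, h2, fun a x hx => ?_⟩
  · exact fin_comap ρ hi W h1
  · refine Submodule.smul_mem _ _ ?_
    rw [Submodule.mem_comap, h]
    exact h3 a _ hx

theorem hw_of {m : M} (h : μ 0 m + I • μ 1 m = 0) {w : ℂ} (h2 : (2 * I / K.κ) • μ 2 m = w • m) :
    HW (nm K μ) w m := by
  refine ⟨?_, ?_⟩
  · rw [oE_apply, nm_apply, nm_apply, smul_comm I K.κ⁻¹, ← smul_add, h, smul_zero, smul_zero]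
  · rw [oH_apply, nm_apply, smul_smul, ← div_eq_mul_inv, h2]

theorem inv_of (hi : Function.Injective ρ)
    (h : ∀ a m, ρ (μ a m) = (K.L a).toLinearMap.rTensor M' (ρ m)) {m : M}
    (h1 : μ 0 m + I • μ 1 m = 0) (h2 : (2 * I / K.κ) • μ 2 m = 0) (a : Fin 3) : μ a m = 0 :=
  smul_cancel (inv_ne_zero K.κ_ne) (HW.inv (vec_of K (mu_br K hi h)) (mu_lf K hi h)
    (hw_of K h1 (h2.trans (zero_smul ℂ m).symm)) a)

end Mod

/-- The trivial representation. -/
def triv : Rep K where
  n := 1
  r := 1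
  r_one := Matrix.map_one _ (map_zero _) (map_one _)
  r_mul hh hk := by
    rw [Matrix.map_one _ (map_zero _) (map_one _), Matrix.map_one _ (map_zero _) (map_one _),
      Matrix.map_one _ (map_zero _) (map_one _), Matrix.one_mul]
  dr _ := 0
  L_r a := by
    refine Matrix.ext fun p q => ?_
    rw [Subsingleton.elim p q]
    simp
  R_r a := by
    refine Matrix.ext fun p q => ?_
    rw [Subsingleton.elim p q]
    simp

/-- The standard representation. -/
def std : Rep K where
  n := G.N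
  r := K.g
  r_one := K.ev_g _ _
  r_mul hh hk := by rw [K.ev_g, K.ev_g, K.ev_g]
  dr := G.β
  L_r := K.L_g
  R_r := K.R_g

/-- The infinitesimal rotations. -/
def p3 : Fin 3 → Matrix (Fin 3) (Fin 3) ℂ := ![!![0, 0, 0; 0, 0, -I; 0, I, 0],
  !![0, 0, I; 0, 0, 0; -I, 0, 0], !![0, -I, 0; I, 0, 0; 0, 0, 0]]

theorem kap3 (K : GK SO3) : K.κ = I := by
  have h0 : p3 0 * p3 1 - p3 1 * p3 0 = ∑ c, (K.κ * eps 0 1 c) • p3 c := K.br 0 1
  have h := congrFun (congrFun h0 0) 1
  simp [p3, eps, Fin.sum_univ_three, Matrix.mul_apply] at h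
  linear_combination (-I) * h + K.κ * I_mul_I

theorem int_top (K : GK SO3) (f : K.O.R) :
    f ∈ ⨆ k : ℤ, Module.End.eigenspace (K.L 2).toLinearMap (k : ℂ) := by
  have m : ∀ (k : ℤ) (x : K.O.R), K.L 2 x = (k : ℂ) • x →
      x ∈ ⨆ k : ℤ, Module.End.eigenspace (K.L 2).toLinearMap (k : ℂ) := fun k x hx =>
    Submodule.mem_iSup_of_mem k (Module.End.mem_eigenspace_iff.2 hx)
  let S : Subalgebra ℂ K.O.R := Submodule.toSubalgebra
    (⨆ k : ℤ, Module.End.eigenspace (K.L 2).toLinearMap (k : ℂ)) (m 0 1 (by simp))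
    fun x y hx hy => by
      refine (?_ : (⨆ k : ℤ, Module.End.eigenspace (K.L 2).toLinearMap (k : ℂ)) *
        (⨆ k : ℤ, Module.End.eigenspace (K.L 2).toLinearMap (k : ℂ)) ≤ _)
        (Submodule.mul_mem_mul hx hy)
      rw [Submodule.iSup_mul]
      refine iSup_le fun k => ?_
      rw [Submodule.mul_iSup]
      refine iSup_le fun l => Submodule.mul_le.2 fun u hu v hv => m (k + l) _ ?_
      have e1 : K.L 2 u = (k : ℂ) • u := Module.End.mem_eigenspace_iff.1 hu
      have e2 : K.L 2 v = (l : ℂ) • v := Module.End.mem_eigenspace_iff.1 hv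
      rw [Derivation.leibniz, e1, e2]
      simp only [smul_eq_mul, Int.cast_add, Algebra.smul_def, map_add]
      ring
  refine gen_top K S (fun p q => ?_) f
  have e : ∀ q : Fin 3, K.L 2 (K.g p q) = (K.g * bt SO3 K.O.R 2) p q := fun q =>
    congrFun (congrFun (K.L_g 2) p) q
  have s : ∀ q : Fin 3, (K.g * bt SO3 K.O.R 2) p q =
      ∑ k : Fin 3, K.g p k * algebraMap ℂ K.O.R (p3 2 k q) := fun _ => rfl
  have e0 : K.L 2 (K.g p (0 : Fin 3)) = I • K.g p (1 : Fin 3) := by
    rw [e, s]
    simp [p3, Fin.sum_univ_three, Algebra.smul_def, mul_comm]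
  have e1 : K.L 2 (K.g p (1 : Fin 3)) = -(I • K.g p (0 : Fin 3)) := by
    rw [e, s]
    simp [p3, Fin.sum_univ_three, Algebra.smul_def, mul_comm]
  have e2 : K.L 2 (K.g p (2 : Fin 3)) = 0 := by
    rw [e, s]
    simp [p3, Fin.sum_univ_three]
  generalize hx : K.g p (0 : Fin 3) = x at e0 e1
  generalize hy : K.g p (1 : Fin 3) = y at e0 e1
  have h1 := m 1 (x + I • y) (by
    rw [map_add, Derivation.map_smul, e0, e1, smul_neg, smul_smul, I_mul_I]
    module)
  have h2 := m (-1) (x - I • y) (by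
    rw [map_sub, Derivation.map_smul, e0, e1, smul_neg, smul_smul, I_mul_I]
    push_cast
    module)
  have hq : ∀ q : Fin 3, K.g p q ∈ S := fun q => by
    fin_cases q
    · have h3 := S.smul_mem (S.add_mem h1 h2) (2⁻¹ : ℂ)
      have h4 : (2⁻¹ : ℂ) • (x + I • y + (x - I • y)) = x := by module
      rw [h4, ← hx] at h3
      exact h3
    · have h3 := S.smul_mem (S.sub_mem h1 h2) (-(2⁻¹ * I) : ℂ)
      have h4 : (-(2⁻¹ * I) : ℂ) • (x + I • y - (x - I • y)) = -((I * I) • y) := by module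
      rw [h4, I_mul_I, neg_smul, neg_neg, one_smul, ← hy] at h3
      exact h3
    · exact m 0 _ (e2.trans (by simp))
  exact hq q

theorem int_tens (K : GK SO3) {M' : Type} [AddCommGroup M'] [Module ℂ M'] (t : K.O.R ⊗[ℂ] M') :
    t ∈ ⨆ k : ℤ, Module.End.eigenspace ((K.L 2).toLinearMap.rTensor M') (k : ℂ) := by
  induction t using TensorProduct.induction_on with
  | zero => exact zero_mem _
  | add s t hs ht => exact add_mem hs ht
  | tmul f x =>
    have h : (⨆ k : ℤ, Module.End.eigenspace (K.L 2).toLinearMap (k : ℂ)) ≤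
        (⨆ k : ℤ, Module.End.eigenspace ((K.L 2).toLinearMap.rTensor M') (k : ℂ)).comap
          ((TensorProduct.mk ℂ K.O.R M').flip x) := iSup_le fun k u hu =>
      Submodule.mem_iSup_of_mem k (Module.End.mem_eigenspace_iff.2 (by
        have e : (K.L 2).toLinearMap u = (k : ℂ) • u := Module.End.mem_eigenspace_iff.1 hu
        change (K.L 2).toLinearMap.rTensor M' (u ⊗ₜ x) = (k : ℂ) • (u ⊗ₜ x)
        rw [LinearMap.rTensor_tmul, e, smul_tmul']))
    exact h (int_top K f)

/-- The trivial representation suffices for `SO_3`. -/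
theorem low3 (K : GK SO3) : (triv K).Low := by
  intro M M' _ _ _ _ μ ρ hi h m hm h1 h2
  rcases h2 with h2 | h2
  · refine ⟨fun _ => m, fun e => hm (congrFun e (0 : Fin 1)), fun a k => ?_⟩
    rw [inv_of K hi h h1 h2]
    exact (Finset.sum_eq_zero fun l _ => zero_smul ℂ m).symm
  · exfalso
    rw [kap3, mul_div_assoc, div_self I_ne_zero, mul_one] at h2
    have e : ρ m ∈ Module.End.eigenspace ((K.L 2).toLinearMap.rTensor M') (2⁻¹ : ℂ) := by
      rw [Module.End.mem_eigenspace_iff, ← h, ← map_smul]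
      refine congrArg ρ ?_
      linear_combination (norm := module) (2⁻¹ : ℂ) • h2
    have d := Module.End.eigenspaces_iSupIndep ((K.L 2).toLinearMap.rTensor M') (2⁻¹ : ℂ)
    refine hm (hi (((Submodule.disjoint_def.1 d) _ e ?_).trans (map_zero ρ).symm))
    refine SetLike.le_def.1 (iSup_le fun k => ?_) (int_tens K (ρ m))
    refine le_iSup₂_of_le (k : ℂ) (fun e => ?_) le_rfl
    have h3 : ((2 * k : ℤ) : ℂ) = ((1 : ℤ) : ℂ) := by push_cast; rw [e]; norm_num
    have h4 := Int.cast_injective h3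
    omega

/-- The Pauli matrices. -/
def p2 : Fin 3 → Matrix (Fin 2) (Fin 2) ℂ := ![!![0, 1; 1, 0], !![0, -I; I, 0], !![1, 0; 0, -1]]

theorem kap2 (K : GK SL2) : K.κ = 2 * I := by
  have h0 : p2 0 * p2 1 - p2 1 * p2 0 = ∑ c, (K.κ * eps 0 1 c) • p2 c := K.br 0 1
  have h := congrFun (congrFun h0 0) 0
  simp [p2, eps, Fin.sum_univ_three, Matrix.mul_apply] at h
  linear_combination -h

/-- The tautological point. -/
def g2 (K : GK SL2) : Matrix (Fin 2) (Fin 2) K.O.R := K.g

/-- A block matrix. -/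
def blk {R : Type} [Zero R] (c : R) (m : Matrix (Fin 2) (Fin 2) R) : Matrix (Fin 3) (Fin 3) R :=
  !![c, 0, 0; 0, m 0 0, m 0 1; 0, m 1 0, m 1 1]

theorem blk_map {R S : Type} [Zero R] [Zero S] (f : R → S) (h : f 0 = 0) (c : R)
    (m : Matrix (Fin 2) (Fin 2) R) : (blk c m).map f = blk (f c) (m.map f) := by
  refine Matrix.ext fun p q => ?_
  fin_cases p <;> fin_cases q <;> first | exact h | rfl

theorem blk_mul {R : Type} [CommRing R] (c d : R) (m n : Matrix (Fin 2) (Fin 2) R) :
    blk c m * blk d n = blk (c * d) (m * n) := by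
  refine Matrix.ext fun p q => ?_
  fin_cases p <;> fin_cases q <;> simp [blk, Matrix.mul_apply, Fin.sum_univ_three]

theorem blk_one {R : Type} [CommRing R] : blk (1 : R) 1 = 1 := by
  refine Matrix.ext fun p q => ?_
  fin_cases p <;> fin_cases q <;> simp [blk]

/-- The sum of the trivial and the standard representation of `SL_2`. -/
def u2 (K : GK SL2) : Rep K where
  n := 3
  r := blk 1 (g2 K)
  r_one := by
    rw [blk_map _ (map_zero _), map_one]
    exact (congrArg (blk 1) (K.ev_g _ _)).trans blk_one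
  r_mul {B} _ _ {h k} hh hk := by
    rw [blk_map _ (map_zero _), blk_map _ (map_zero _), blk_map _ (map_zero _), map_one, map_one,
      map_one, blk_mul, one_mul]
    exact congrArg (blk 1) ((K.ev_g _ _).trans
      (congrArg₂ (fun u v : Matrix (Fin 2) (Fin 2) B => u * v) (K.ev_g h hh) (K.ev_g k hk)).symm)
  dr a := blk 0 (p2 a)
  L_r a := by
    rw [blk_map _ (map_zero _), blk_map _ (map_zero _), blk_mul, map_zero, mul_zero,
      Derivation.map_one_eq_zero]
    exact congrArg (blk 0) (K.L_g a)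
  R_r a := by
    rw [blk_map _ (map_zero _), blk_map _ (map_zero _), blk_mul, map_zero, zero_mul,
      Derivation.map_one_eq_zero]
    exact congrArg (blk 0) (K.R_g a)

/-- The representation `1 + ℂ²` suffices for `SL_2`. -/
theorem low2 (K : GK SL2) : (u2 K).Low := by
  intro M M' _ _ _ _ μ ρ hi h m hm h1 h2
  rcases h2 with h2 | h2
  · refine ⟨![m, 0, 0], fun e => hm (congrFun e (0 : Fin 3)), fun a => ?_⟩
    have e := inv_of K hi h h1 h2 a
    change ∀ k : Fin 3, μ a (![m, 0, 0] k) = ∑ l : Fin 3, blk 0 (p2 a) l k • ![m, 0, 0] l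
    intro k
    fin_cases k <;> simp [blk, Fin.sum_univ_three, e]
  · have v := vec_of K (mu_br K hi h)
    have hw := hw_of K h1 (h2.trans (one_smul ℂ m).symm)
    have z := Hw.neg v.sl (mu_lf K hi h).lf (k := 2) (m := oF (nm K μ) (oF (nm K μ) m))
      ⟨(hw.eff v.sl).trans (by norm_num), (hw.hff v.sl).trans (by norm_num)⟩
    have a1 := hw.ef v.sl
    have a2 := hw.hf v.sl
    have c1 : I * K.κ⁻¹ = 2⁻¹ := by rw [kap2]; field_simp
    have oE' : ∀ x, oE (nm K μ) x = (2⁻¹ : ℂ) • (μ 0 x + I • μ 1 x) := fun x => by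
      rw [oE_apply, nm_apply, nm_apply, smul_comm I K.κ⁻¹, ← smul_add, smul_smul, c1]
    have oF' : ∀ x, oF (nm K μ) x = (2⁻¹ : ℂ) • (μ 0 x - I • μ 1 x) := fun x => by
      rw [oF_apply, nm_apply, nm_apply, smul_comm I K.κ⁻¹, ← smul_sub, smul_smul, c1]
    have oH' : ∀ x, oH (nm K μ) x = μ 2 x := fun x => by
      rw [oH_apply, nm_apply, smul_smul, mul_assoc, c1, mul_inv_cancel₀ two_ne_zero, one_smul]
    have a0 := hw.h
    have f0 := oF' m
    generalize oF (nm K μ) m = n at z a1 a2 f0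
    rw [oF'] at z
    rw [oE'] at a1
    rw [oH'] at a0 a2
    have ii : ∀ x : M, I • I • x = -x := fun x => by rw [smul_smul, I_mul_I, neg_smul, one_smul]
    have b0 : μ 0 m = n := by linear_combination (norm := module) (2⁻¹ : ℂ) • h1 - f0
    have b1 : μ 1 m = I • n := by
      have t : I • μ 1 m = -n := by linear_combination (norm := module) h1 - b0
      rw [← neg_neg (μ 1 m), ← ii (μ 1 m), t, smul_neg, neg_neg]
    have b2 : μ 0 n = m := by linear_combination (norm := module) a1 + z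
    have b3 : μ 1 n = -(I • m) := by
      have t : I • μ 1 n = m := by linear_combination (norm := module) a1 - z
      rw [← neg_neg (μ 1 n), ← ii (μ 1 n), t]
    have b4 : μ 2 m = m := a0.trans (one_smul ℂ m)
    have b5 : μ 2 n = -n := by linear_combination (norm := module) a2
    refine ⟨![0, m, n], fun e => hm (congrFun e (1 : Fin 3)), fun a => ?_⟩
    change ∀ k : Fin 3, μ a (![0, m, n] k) = ∑ l : Fin 3, blk 0 (p2 a) l k • ![0, m, n] l
    intro k
    fin_cases a <;> fin_cases k <;>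
      simp [blk, p2, Fin.sum_univ_three, b0, b1, b2, b3, b4, b5]

end

end Vale.Agent.P286EXR
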